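import Mathlib

open Polynomial

namespace Vale.Agent.Lib.P047D

/-- Unnormalised Fourier sum of an integer valued function on the cube. -/
def hat {n : ℕ} (F : (Fin n → ℤˣ) → ℤ) (S : Finset (Fin n)) : ℤ :=
  ∑ x : Fin n → ℤˣ, F x * ∏ i ∈ S, ((x i : ℤˣ) : ℤ)

lemma sum_units' (g : ℤˣ → ℤ) : ∑ u, g u = g 1 + g (-1) := by
  have h : (Finset.univ : Finset ℤˣ) = {1, -1} := by decide
  rw [h, Finset.sum_pair (by decide)]

lemma sum_split {n : ℕ} (F : (Fin (n + 1) → ℤˣ) → ℤ) :
    ∑ x, F x = ∑ y : Fin n → ℤˣ, (F (Fin.cons 1 y) + F (Fin.cons (-1) y)) := by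
  rw [← Equiv.sum_comp (Fin.consEquiv (fun _ => ℤˣ) : ℤˣ × (Fin n → ℤˣ) ≃ (Fin (n + 1) → ℤˣ)) F,
    Fintype.sum_prod_type_right]
  refine Finset.sum_congr rfl fun y _ => ?_
  rw [sum_units']
  rfl

lemma hat_map {n : ℕ} (F : (Fin (n + 1) → ℤˣ) → ℤ) (S : Finset (Fin n)) :
    hat F (S.map (Fin.succEmb n)) =
      hat (fun y => F (Fin.cons 1 y) + F (Fin.cons (-1) y)) S := by
  unfold hat
  rw [sum_split]
  refine Finset.sum_congr rfl fun y _ => ?_
  have e : ∀ (a : ℤˣ) (x : Fin n),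
      (Fin.cons a y : Fin (n + 1) → ℤˣ) ((Fin.succEmb n) x) = y x := fun _ _ => rfl
  simp only [Finset.prod_map, e]
  ring

lemma hat_insert {n : ℕ} (F : (Fin (n + 1) → ℤˣ) → ℤ) (S : Finset (Fin n)) :
    hat F (insert 0 (S.map (Fin.succEmb n))) =
      hat (fun y => F (Fin.cons 1 y) - F (Fin.cons (-1) y)) S := by
  unfold hat
  rw [sum_split]
  refine Finset.sum_congr rfl fun y _ => ?_
  have h0 : (0 : Fin (n + 1)) ∉ S.map (Fin.succEmb n) := by
    simp [Fin.succ_ne_zero]
  rw [Finset.prod_insert h0, Finset.prod_insert h0]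
  have e : ∀ (a : ℤˣ) (x : Fin n),
      (Fin.cons a y : Fin (n + 1) → ℤˣ) ((Fin.succEmb n) x) = y x := fun _ _ => rfl
  simp only [Finset.prod_map, e, Fin.cons_zero, Units.val_one, Units.val_neg]
  ring

lemma elim_eq_default : (fun i : Fin 0 => i.elim0 : Fin 0 → ℤˣ) = default :=
  Subsingleton.elim _ _

lemma hat_empty_zero (F : (Fin 0 → ℤˣ) → ℤ) : hat F ∅ = F (fun i => i.elim0) := by
  unfold hat
  rw [Fintype.sum_subsingleton _ (fun i : Fin 0 => i.elim0 : Fin 0 → ℤˣ)]
  simp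

/-- The level polynomial `∑_S hat F S X^|S|`, by recursion on the number of variables. -/
noncomputable def T : ∀ {n : ℕ}, ((Fin n → ℤˣ) → ℤ) → ℤ[X]
  | 0, F => C (F (fun i => i.elim0))
  | _ + 1, F => T (fun y => F (Fin.cons 1 y) + F (Fin.cons (-1) y)) +
      X * T (fun y => F (Fin.cons 1 y) - F (Fin.cons (-1) y))

lemma T_add : ∀ {n : ℕ} (F G : (Fin n → ℤˣ) → ℤ), T (fun y => F y + G y) = T F + T G
  | 0, F, G => by simp [T]
  | n + 1, F, G => by
    simp only [T]
    have h1 : (fun y : Fin n → ℤˣ => F (Fin.cons 1 y) + G (Fin.cons 1 y) +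
        (F (Fin.cons (-1) y) + G (Fin.cons (-1) y))) =
        fun y => (F (Fin.cons 1 y) + F (Fin.cons (-1) y)) +
          (G (Fin.cons 1 y) + G (Fin.cons (-1) y)) := by
      funext y; ring
    have h2 : (fun y : Fin n → ℤˣ => F (Fin.cons 1 y) + G (Fin.cons 1 y) -
        (F (Fin.cons (-1) y) + G (Fin.cons (-1) y))) =
        fun y => (F (Fin.cons 1 y) - F (Fin.cons (-1) y)) +
          (G (Fin.cons 1 y) - G (Fin.cons (-1) y)) := by
      funext y; ring
    have e1 := T_add (fun y : Fin n → ℤˣ => F (Fin.cons 1 y) + F (Fin.cons (-1) y))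
      (fun y => G (Fin.cons 1 y) + G (Fin.cons (-1) y))
    have e2 := T_add (fun y : Fin n → ℤˣ => F (Fin.cons 1 y) - F (Fin.cons (-1) y))
      (fun y => G (Fin.cons 1 y) - G (Fin.cons (-1) y))
    beta_reduce at e1 e2
    rw [h1, h2, e1, e2]
    ring

lemma T_neg : ∀ {n : ℕ} (F : (Fin n → ℤˣ) → ℤ), T (fun y => - F y) = - T F
  | 0, F => by simp [T]
  | n + 1, F => by
    simp only [T]
    have h1 : (fun y : Fin n → ℤˣ => - F (Fin.cons 1 y) + - F (Fin.cons (-1) y)) =
        fun y => - (F (Fin.cons 1 y) + F (Fin.cons (-1) y)) := by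
      funext y; ring
    have h2 : (fun y : Fin n → ℤˣ => - F (Fin.cons 1 y) - - F (Fin.cons (-1) y)) =
        fun y => - (F (Fin.cons 1 y) - F (Fin.cons (-1) y)) := by
      funext y; ring
    have e1 := T_neg (fun y : Fin n → ℤˣ => F (Fin.cons 1 y) + F (Fin.cons (-1) y))
    have e2 := T_neg (fun y : Fin n → ℤˣ => F (Fin.cons 1 y) - F (Fin.cons (-1) y))
    beta_reduce at e1 e2
    rw [h1, h2, e1, e2]
    ring

lemma T_sub {n : ℕ} (F G : (Fin n → ℤˣ) → ℤ) : T (fun y => F y - G y) = T F - T G := by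
  have h : (fun y => F y - G y) = fun y => F y + (fun z => - G z) y := by
    funext y; ring
  rw [h, T_add, T_neg]; ring

lemma T_coeff_eq_zero : ∀ {n : ℕ} (d : ℕ) (F : (Fin n → ℤˣ) → ℤ),
    (∀ S : Finset (Fin n), d ≤ S.card → hat F S = 0) → ∀ k, d ≤ k → (T F).coeff k = 0
  | 0, d, F, h, k, hk => by
    simp only [T, coeff_C]
    split_ifs with hk0
    · subst hk0
      have hd : d = 0 := by omega
      subst hd
      have := h ∅ (le_refl _)
      rw [hat_empty_zero] at this
      exact this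
    · rfl
  | n + 1, d, F, h, k, hk => by
    simp only [T, coeff_add]
    have h1 := T_coeff_eq_zero d (fun y : Fin n → ℤˣ => F (Fin.cons 1 y) + F (Fin.cons (-1) y))
      (fun S hS => by
        rw [← hat_map]
        exact h _ (by simpa using hS)) k hk
    rw [h1, zero_add]
    cases k with
    | zero => simp
    | succ m =>
      rw [coeff_X_mul]
      refine T_coeff_eq_zero (d - 1) (fun y : Fin n → ℤˣ => F (Fin.cons 1 y) - F (Fin.cons (-1) y))
        (fun S hS => ?_) m (by omega)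
      rw [← hat_insert]
      refine h _ ?_
      rw [Finset.card_insert_of_notMem (by simp [Fin.succ_ne_zero]), Finset.card_map]
      omega

lemma T_coeff_zero : ∀ {n : ℕ} (F : (Fin n → ℤˣ) → ℤ), (T F).coeff 0 = hat F ∅
  | 0, F => by
    simp only [T, coeff_C_zero]
    rw [hat_empty_zero]
  | n + 1, F => by
    simp only [T, coeff_add, mul_coeff_zero, coeff_X_zero, zero_mul, add_zero]
    rw [T_coeff_zero, ← hat_map]
    simp

lemma T_coeff_one : ∀ {n : ℕ} (F : (Fin n → ℤˣ) → ℤ),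
    (T F).coeff 1 = ∑ i : Fin n, hat F {i}
  | 0, F => by
    simp only [T]
    rw [coeff_C]
    simp
  | n + 1, F => by
    simp only [T, coeff_add]
    have hx : ∀ p : ℤ[X], (X * p).coeff 1 = p.coeff 0 := fun p => coeff_X_mul p 0
    have h0 : hat F {0} = hat (fun y => F (Fin.cons 1 y) - F (Fin.cons (-1) y)) ∅ := by
      rw [← hat_insert]
      simp
    have hs : ∀ i : Fin n, hat F {Fin.succ i} =
        hat (fun y => F (Fin.cons 1 y) + F (Fin.cons (-1) y)) {i} := by
      intro i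
      rw [← hat_map]
      simp
    rw [hx, T_coeff_one, T_coeff_zero, Fin.sum_univ_succ, h0]
    simp only [hs]
    ring

/-- The probability polynomial: `Q f` evaluated at `p` is the probability that `f = -1` when every
coordinate is independently `-1` with probability `p`. -/
noncomputable def Q : ∀ {n : ℕ}, ((Fin n → ℤˣ) → ℤˣ) → ℤ[X]
  | 0, f => if f (fun i => i.elim0) = 1 then 0 else 1
  | _ + 1, f => Q (fun y => f (Fin.cons 1 y)) +
      X * (Q (fun y => f (Fin.cons (-1) y)) - Q (fun y => f (Fin.cons 1 y)))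

/-- The substitution `X ↦ 1 - 2 X`. -/
noncomputable def Y : ℤ[X] := 1 - C 2 * X

lemma T_comp : ∀ {n : ℕ} (f : (Fin n → ℤˣ) → ℤˣ),
    (T (fun x => ((f x : ℤˣ) : ℤ))).comp Y = C ((2 : ℤ) ^ n) * (1 - C 2 * Q f)
  | 0, f => by
    simp only [T, Q, C_comp, pow_zero, C_1, one_mul]
    rcases Int.units_eq_one_or (f (fun i => i.elim0)) with h | h
    · simp [h]
    · simp [h]
      ring
  | n + 1, f => by
    have h1 := T_comp (fun y : Fin n → ℤˣ => f (Fin.cons 1 y))
    have h2 := T_comp (fun y : Fin n → ℤˣ => f (Fin.cons (-1) y))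
    simp only [T, Q]
    rw [T_add, T_sub]
    simp only [add_comp, sub_comp, mul_comp, X_comp]
    rw [h1, h2]
    simp only [Y, pow_succ, C_mul]
    simp only [map_ofNat]
    ring

/-- The derivative relation at the level of polynomials. -/
lemma deriv_comp_eq {n : ℕ} (f : (Fin n → ℤˣ) → ℤˣ) :
    (derivative (T (fun x => ((f x : ℤˣ) : ℤ)))).comp Y = C ((2 : ℤ) ^ n) * derivative (Q f) := by
  have h := congrArg derivative (T_comp f)
  have hY : derivative Y = - C 2 := by simp [Y]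
  rw [derivative_comp, hY] at h
  simp only [derivative_sub, derivative_one, derivative_mul, derivative_C,
    zero_mul, add_zero, mul_one, zero_sub, sub_zero, zero_add] at h
  have h2 : (C 2 : ℤ[X]) ≠ 0 := by simp
  have h3 : - (C 2 : ℤ[X]) ≠ 0 := neg_ne_zero.mpr h2
  apply mul_left_cancel₀ h3
  rw [h]
  ring

end Vale.Agent.Lib.P047D
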